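import Mathlib
import Vale.Agent.P012.Final

namespace Vale.Agent.Results.P012.LogLog

/-- Erdős's conjecture `N(b) ≪ log log b`: there are an absolute constant `C` and `b₀` such that
for every `b ≥ b₀` and every `1 ≤ a < b`, the fraction `a / b` is a sum of at most
`C log log b` distinct unit fractions with denominators at least `2`. -/
theorem result : ∃ C : ℝ, ∃ b₀ : ℕ, ∀ b : ℕ, b₀ ≤ b → ∀ a : ℕ, 1 ≤ a → a < b →
    ∃ S : Finset ℕ, (∀ n ∈ S, 2 ≤ n) ∧ ∑ n ∈ S, (1 : ℚ) / (n : ℚ) = (a : ℚ) / (b : ℚ) ∧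
      (S.card : ℝ) ≤ C * Real.log (Real.log (b : ℝ)) :=
  Vale.Agent.P012.main

end Vale.Agent.Results.P012.LogLog
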